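import Crest.Statements.S0170
import Crest.Agent.R126.Assembly
-- import your own Crest.Agent.* helpers here

set_option autoImplicit false
open scoped ContDiff
open Crest.AnalysisR.BoxFlow
open Crest Crest.AnalysisR

namespace Crest.Agent.S0170

/-- Finitely many pairwise disjoint rational boxes in 3-space are carried onto disjoint target boxes, each a translated determinant-one positive diagonal rescaling of its source, by the time-one flow of a smooth, compactly supported, effective, divergence-free velocity field active only in [1/4,3/4]. The flow equals the prescribed affine map on a neighbourhood of each source box. Effective: computably approximable mixed derivatives at rational points and computable global derivative bounds. -/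
theorem result
    (n : ℕ) (a b h k : Fin n → Fin 3 → ℚ)
    (hh : ∀ i j, 0 < h i j) (hk : ∀ i j, 0 < k i j)
    (ha : Pairwise fun i i' => Disjoint (box (a i) (h i)) (box (a i') (h i')))
    (hb : Pairwise fun i i' => Disjoint (box (b i) (k i)) (box (b i') (k i')))
    (hvol : ∀ i, ∏ j : Fin 3, k i j / h i j = 1) :
    ∃ (U : Field) (Φ : ℝ → (Fin 3 → ℝ) → (Fin 3 → ℝ)),
      ContDiff ℝ ∞ U ∧ HasCompactSupport U ∧ Effective U ∧
      (∀ p : ℝ × (Fin 3 → ℝ), p.1 ∉ Set.Icc (1 / 4 : ℝ) (3 / 4) → U p = 0) ∧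
      (∀ p : ℝ × (Fin 3 → ℝ), spaceDiv U p = 0) ∧ IsFlow U Φ ∧
      ∀ i : Fin n, ∃ O : Set (Fin 3 → ℝ), IsOpen O ∧ box (a i) (h i) ⊆ O ∧
        ∀ x ∈ O, Φ 1 x = fun j => (b i j : ℝ) + ((k i j / h i j : ℚ) : ℝ) * (x j - (a i j : ℝ)) := by
  classical
  have sa : Pairwise fun i i' => R126.Sep (a i) (h i) (a i') (h i') := fun i i' hii =>
    R126.sep_of_disjoint _ _ _ _ (fun l => (hh i l).le) (fun l => (hh i' l).le) (ha hii)
  have sb : Pairwise fun i i' => R126.Sep (b i) (k i) (b i') (k i') := fun i i' hii =>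
    R126.sep_of_disjoint _ _ _ _ (fun l => (hk i l).le) (fun l => (hk i' l).le) (hb hii)
  obtain ⟨ε₁, h1, e1⟩ := R126.exists_enlarge a h hh sa
  obtain ⟨ε₂, h2, e2⟩ := R126.exists_enlarge b k hk sb
  set ε : ℚ := min ε₁ ε₂ with hε
  have hε0 : 0 < ε := lt_min h1 h2
  have sa' := e1 ε hε0 (min_le_left _ _)
  have sb' := e2 ε hε0 (min_le_right _ _)
  set h' : Fin n → Fin 3 → ℚ := fun i j => (1 + ε) * h i j with hh'def
  set k' : Fin n → Fin 3 → ℚ := fun i j => (1 + ε) * k i j with hk'def
  have hh' : ∀ i j, 0 < h' i j := fun i j => mul_pos (by linarith) (hh i j)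
  have hk' : ∀ i j, 0 < k' i j := fun i j => mul_pos (by linarith) (hk i j)
  have hratio : ∀ i j, k' i j / h' i j = k i j / h i j := by
    intro i j
    have : (1 + ε) ≠ 0 := by linarith
    simp only [hh'def, hk'def]
    rw [mul_div_mul_left _ _ this]
  have hvol' : ∀ i, ∏ j : Fin 3, k' i j / h' i j = 1 := by
    intro i
    rw [← hvol i]
    exact Finset.prod_congr rfl fun j _ => hratio i j
  have hreach := R126.reach_main a b h' k' hh' hk' sa' sb' hvol'
  obtain ⟨U, hG, hT, hC⟩ := hreach (1 / 4) (3 / 4) (by norm_num)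
  have c14 : (((1 / 4 : ℚ)) : ℝ) = 1 / 4 := by norm_num
  have c34 : (((3 / 4 : ℚ)) : ℝ) = 3 / 4 := by norm_num
  rw [c14, c34] at hT
  simp only [c14, c34] at hC
  -- an integral curve through every point, with the right endpoint for points of the boxes
  have hcurve : ∀ x : Fin 3 → ℝ, ∃ γ : ℝ → (Fin 3 → ℝ), γ 0 = x ∧
      (∀ τ, HasDerivAt γ (U (τ, γ τ)) τ) ∧
      ∀ i, x ∈ box (a i) (h' i) → γ 1 = R126.aff (a i) (h' i) (b i) (k' i) x := by
    intro x
    by_cases hx : ∃ i, x ∈ box (a i) (h' i)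
    · obtain ⟨i, hi⟩ := hx
      obtain ⟨γ, g1, g2, g3⟩ := hC i x hi
      refine ⟨γ, g2 0 (by norm_num), g1, fun i' hi' => ?_⟩
      have : i' = i := by
        by_contra hne
        exact R126.T13_not_mem_of_sep (sa' hne) hi' hi
      subst this
      exact g3 1 (by norm_num)
    · obtain ⟨γ, g0, g1⟩ := R126.exists_global_solution U hG.smooth hG.cpt (1 / 4) (3 / 4)
        (by norm_num) (by norm_num) hT x
      exact ⟨γ, g0, g1, fun i hi => absurd ⟨i, hi⟩ hx⟩
  choose Γ Γ0 Γ1 Γ2 using hcurve
  refine ⟨U, fun t x => Γ x t, hG.smooth, hG.cpt, hG.eff, ?_, hG.div, ⟨Γ0, fun t x => Γ1 x t⟩, ?_⟩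
  · intro p hp
    exact hT p (fun hmem => hp ⟨hmem.1.le, hmem.2.le⟩)
  · intro i
    refine ⟨{x | ∀ j : Fin 3, |x j - (a i j : ℝ)| < (h' i j : ℝ)}, ?_, ?_, ?_⟩
    · have : {x : Fin 3 → ℝ | ∀ j : Fin 3, |x j - (a i j : ℝ)| < (h' i j : ℝ)}
          = ⋂ j : Fin 3, {x : Fin 3 → ℝ | |x j - (a i j : ℝ)| < (h' i j : ℝ)} := by
        ext x; simp
      rw [this]
      refine isOpen_iInter_of_finite fun j => ?_
      exact isOpen_lt (by fun_prop) continuous_const
    · intro x hx j
      have h1 : |x j - (a i j : ℝ)| ≤ (h i j : ℝ) := hx j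
      have h2 : (h i j : ℝ) < (h' i j : ℝ) := by
        have : h i j < h' i j := by
          simp only [hh'def]
          have := mul_pos hε0 (hh i j)
          linarith
        exact_mod_cast this
      exact lt_of_le_of_lt h1 h2
    · intro x hx
      have hmem : x ∈ box (a i) (h' i) := fun j => (hx j).le
      have := Γ2 x i hmem
      show Γ x 1 = _
      rw [this]
      funext j
      simp only [R126.aff, hratio]

end Crest.Agent.S0170
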